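import Vale.Agent.P352X.R.JC.A2
import Vale.Agent.P352L.R.JC.A1
import Vale.Agent.P352L.Spec

/-!
# P352L, row JC: the stress tensor, the group `S0`, the algebras of the wedges
-/

set_option linter.all false

noncomputable section

open MeasureTheory Filter Topology Set
open scoped SchwartzMap ComplexConjugate

namespace Vale.Agent.P352L.JCa

open Vale.Agent.P352X
export Vale.Agent.P352X.JCa (cp_rj isLor_jL jo jr_wdg jr_zero rj sim_jL sim_rj test_jr tp_rj
  trans)
export Vale.Agent.P352X (d2_neg d2_neg_l jr_jr null_ext)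

open Vale.Agent.P352 Vale.Agent.P352.GF Vale.Agent.P352.BW
open Vale.Agent.P352.H246 Vale.Agent.P352.H496 Vale.Agent.P352.H755 Vale.Agent.P352.H15
open Vale.Agent.P352.BW.T (Ten op tp cp rq cm Afs)
open Vale.Agent.P352.BW.H49 (Adj)
open Vale.Agent.P132 (ModData jconj)
open UniformSpace (Completion)

/-! ### pairs of null vectors -/

variable {a b a' b' a'' b'' : V}

variable {D : Type*} [NormedAddCommGroup D] [InnerProductSpace ℂ D] (c : Ctx D)

lemma alg_sim {s : ℝ} {L : Ix → V} (hs : 0 < s) (hL : IsLor L) (y : V) {O : Set V}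
    (h : ∀ X ∈ c.N O, jconj c.J X ∈ c.N (jr '' O)) :
    ∀ X ∈ c.N (sim s L y '' O), jconj c.J X ∈ c.N (jr '' (sim s L y '' O)) := by
  intro X hX
  have u := Grp.uni c.hN.toRep s L y
  have u' := Grp.uni c.hN.toRep s (jL L) (jr y)
  set U := Ug c.Q s L y
  set U' := Ug c.Q s (jL L) (jr y)
  have e : ∀ z, c.J (U z) = U' (c.J z) := fun z => ug c s L y z hs hL
  have u1 : ∀ z, U (star U z) = z := fun z =>
    congrArg (fun T : Completion D →L[ℂ] Completion D => T z) u.2
  have u2 : ∀ z, star U' (U' z) = z := fun z =>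
    congrArg (fun T : Completion D →L[ℂ] Completion D => T z) u'.1
  have h1 : star U * X * U ∈ c.N O := (Grp.alg c.hN hs hL y O _).2 (by
    rwa [← mul_assoc, ← mul_assoc, u.2, one_mul, mul_assoc, u.2, mul_one])
  have h2 := (Grp.alg c.hN hs (isLor_jL hL) (jr y) _ _).1 (h _ h1)
  have e1 : sim s (jL L) (jr y) '' (jr '' O) = jr '' (sim s L y '' O) := by
    simp only [image_image, sim_jL]
  have e2 : ∀ z, U (c.J (star U' z)) = c.J z := fun z => by
    rw [← c.E.J_J z, ← u1 (c.J z), e, u2, c.E.J_J, ← e, c.E.J_J]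
  rw [e1] at h2
  convert h2 using 1
  ext z
  show c.J (X (c.J z)) = U' (c.J (star U (X (U (c.J (star U' z))))))
  rw [e2, ← e, u1]

theorem alg_of (h : (c.N (Wdg va vb 0)).commutant = c.N (Wdg vb va 0)) (a b y : V) (ha : IsNull a)
    (hb : IsNull b) (hab : 0 < GF.mdot a b) :
    ∀ X ∈ c.N (Wdg a b y), jconj c.J X ∈ c.N (jr '' Wdg a b y) := by
  obtain ⟨L, h1, h2⟩ := trans ha hb hab
  rw [← (h2 y).1]
  exact alg_sim c one_pos h1 y fun X hX => by rw [jr_wdg, ← h]; exact c.E.J_mem X hX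

/-! ### the null rotations -/

theorem ga (w : R2) (z : Completion D) : c.J (Ga c.Q w z) = Ga c.Q (-w) (c.J z) := by
  rw [Ga, ug c _ _ _ _ one_pos (Grp.lga w).1, jr_zero, Ga]
  congr 2
  refine T.mat_ext fun x => ?_
  have h := sim_jL (H746.nrt va (tv ((1 / 2 : ℝ) • w))) 1 0 (jr x)
  rw [jr_jr, jr_zero] at h
  rw [h, (Grp.lga w).2, (Grp.lga (-w)).2]
  refine null_ext ?_ (by simp) (by simp)
  simp [d2_neg, d2_neg_l]
  ring

theorem s0 (t : ℝ) (z : Completion D) : c.J (c.S0 t z) = c.S0 (-t) (c.J z) := by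
  have h := c.a3.intertwine_anti CTXp.pair3 c.a3.toCalc measurable_id
    c.J.toContinuousLinearEquiv.toContinuousLinearMap (v := z) (w := c.J z) (fun y => ?_)
    (SN.Bd.expI (r := fun k : P3 => t * (d2 k.2 k.2 / k.1)) (by fun_prop))
  · refine h.trans ?_
    rw [Base.S0]
    congr 2
    funext k
    rw [← Complex.exp_conj, map_mul, Complex.conj_I, Complex.conj_ofReal]
    congr 1
    push_cast
    simp
  · have e : (fun p => conj (SN.ch pr3 y (id p))) = SN.ch pr3 (-y) := funext fun p => by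
      rw [SN.ch, SN.ch, ← Complex.exp_conj, map_mul, Complex.conj_I, Complex.conj_ofReal]
      congr 1
      simp [pr3, d2_neg]
      ring
    rw [e, c.a3.Phi_ch]
    show c.J (Ut c.Q _ (Ga c.Q _ z)) = _
    rw [ut, ga]
    congr 2
    exact null_ext (by simp) (by simp) (by simp)

/-! ### the stress tensor -/

lemma ten_T : Ten c.Q 2 fun μ => c.T (μ 0) (μ 1) := by
  refine ⟨fun μ => Grp.T_fld c.hT _ _, fun μ L f v hL hf => ?_⟩
  rw [c.hT.cov _ _ L 0 f v hL hf, ← (finTwoArrowEquiv Ix).symm.sum_comp,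
    Fintype.sum_prod_type]
  simp [finTwoArrowEquiv, Fin.prod_univ_two]

lemma adj_T : Adj (fun μ : Fin 2 → Ix => c.T (μ 0) (μ 1)) fun μ => c.T (μ 0) (μ 1) := by
  intro a f v w hf
  rw [op, op, sum_inner, inner_sum]
  exact Finset.sum_congr rfl fun μ _ => by
    rw [inner_smul_left, inner_smul_right, c.hT.herm _ _ f v w hf]

/-- **`J T(f) J`** on the domain -/
theorem jt (m n : Ix) {f : Fn} (hf : GF.IsTest f) {v v' : D} (hv : c.J v = v') :
    c.J (c.T m n f v : D) =
      (((sj m * sj n : ℝ) : ℂ) • c.T m n (bar fun z => f (jr z)) v' : D) := by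
  classical
  obtain ⟨g, rfl⟩ := hf
  obtain ⟨-, u, -, -, h1, -, h2⟩ := ST.exists_cut g
  let e := T.eqv rj rj (fun x => by rw [sim_rj, sim_rj, jr_jr]) fun x => by
    rw [sim_rj, sim_rj, jr_jr]
  let B : Sch → Sch := fun g => SchwartzMap.postcompCLM (𝕜 := ℝ) (Complex.conjCLE : ℂ →L[ℝ] ℂ)
    (SchwartzMap.compCLMOfContinuousLinearEquiv ℂ e g)
  have hB : ∀ g, ev (B g) = bar fun z => ev g (jr z) := fun g =>
    funext fun z => congrArg (fun x => star (g x)) (sim_rj z)
  have cT := fun v => c.Q.cont _ v (Grp.T_fld c.hT m n)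
  have cc := Completion.continuous_coe D
  refine tendsto_nhds_unique ((c.J.continuous.comp (cc.comp (cT v))).tendsto g |>.comp h2) ?_
  rw [← hB]
  refine ((cc.comp (((cT v').comp (show Continuous B by fun_prop)).const_smul
    ((sj m * sj n : ℝ) : ℂ))).tendsto g |>.comp h2).congr fun i => ?_
  have k := key1 2 _ _ (Pi.single ![m, n] 1) (ev (u i)) v v' (ten_T c) (ten_T c) (adj_T c)
    ⟨⟨_, rfl⟩, h1 i, subset_univ _⟩ hv
  rw [T.op_single, jo, op, Finset.sum_eq_single ![m, n], tp_rj, cp_rj] at k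
  · refine Eq.trans ?_ k.symm
    simp [hB]
    rfl
  · intro ν _ h
    simp [tp_rj, Pi.single_eq_of_ne h]
  · simp

theorem one (m n : Ix) (f : Fn) (hf : GF.IsTest f) : c.J (c.T m n f c.Q.vac : D) =
    ((sj m * sj n : ℝ) : ℂ) • ((c.T m n (bar fun z => f (jr z)) c.Q.vac : D) : Completion D) := by
  rw [jt c m n hf c.E.J_xi, Completion.coe_smul]

theorem two (m n k l : Ix) (f g : Fn) (hf : GF.IsTest f) (hg : GF.IsTest g) :
    c.J (c.T m n f (c.T k l g c.Q.vac) : D) =
      ((sj m * sj n * (sj k * sj l) : ℝ) : ℂ) • ((c.T m n (bar fun z => f (jr z))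
        (c.T k l (bar fun z => g (jr z)) c.Q.vac) : D) : Completion D) := by
  have t : GF.IsTest fun z => f (jr z) := cp_rj f ▸ test_jr hf
  have e : ∀ (a : ℂ) v, c.T m n (bar fun z => f (jr z)) (a • v) =
      a • c.T m n (bar fun z => f (jr z)) v := fun a v => ext_inner_left ℂ fun w => by
    rw [← c.hT.herm m n _ _ _ t, inner_smul_right, inner_smul_right, c.hT.herm m n _ _ _ t]
  rw [jt c m n hf (jt c k l hg c.E.J_xi), e, smul_smul, Completion.coe_smul, ← Complex.ofReal_mul]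

end Vale.Agent.P352L.JCa
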